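import Vale.Agent.P223I.Fin
import Vale.Agent.P223W69.Fin
import Vale.Agent.P223W25.Cls
import Vale.Agent.P223X38.Scal

namespace Vale.Agent.Results.P223.AAAAClass

open scoped Manifold ContDiff
open MeasureTheory Vale.Agent.P223.J Vale.Agent.P223W69
open Vale.Agent.P244I (IsRiem IsScal)

/-- Gromov's inequality: for every `n ≥ 3` there is `a > 0` such that for all closed connected
smooth `n`-manifolds `M` with an orientation `o`: the real cycles which induce the local
orientation at all points form one homology class `[M]`, the class of an integral cycle `z₀`; and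
for all smooth Riemannian metrics `g` the curvature tensor of the Levi-Civita connection, the scalar
curvature and the volume measure exist and are unique, and `a ‖M‖ ≤ ∫ (Scal⁻)^(n/2) dV`. -/
theorem result (n : ℕ) (hn : 3 ≤ n) : ∃ a > (0 : ℝ), ∀ (M : Type) [TopologicalSpace M]
    [CompactSpace M] [T2Space M] [ConnectedSpace M] [ChartedSpace (EE n) M]
    [IsManifold (𝓡 n) ∞ M] [MeasurableSpace M] [BorelSpace M] (o : Ori (EE n) n M), IsOri o →
    ∃ z₀ : Simp (n + 1) M →₀ ℝ, (∀ σ, ∃ m : ℤ, z₀ σ = m) ∧ IsFundM o z₀ ∧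
      (∀ z, IsFundM o z ↔ Homol z z₀) ∧ ∀ g : RM (EE n) M,
      (∃! R, IsRiem g R) ∧ (∃! S, IsScal g S) ∧ (∃! μ : Measure M, IsVol g μ) ∧
      ∀ (S : M → ℝ) (μ : Measure M), IsScal g S → IsVol g μ →
        ENNReal.ofReal a * nrm z₀ ≤ ∫⁻ p, ENNReal.ofReal (max 0 (-S p) ^ ((n : ℝ) / 2)) ∂μ := by
  obtain ⟨a, a0, h⟩ := fin (fun _ _ _ _ _ hc => Vale.Agent.P223W25.fund_class (by omega) hc)
    (Vale.Agent.P223I.q1 hn)
  refine ⟨a, a0, fun M _ _ _ _ _ _ _ _ o ho => ?_⟩
  obtain ⟨z₀, h1, h2, h3, h4⟩ := h M o ho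
  refine ⟨z₀, h1, h2, h3, fun g => ⟨Vale.Agent.P244I.exu_riem g, Vale.Agent.P244I.exu_scal g,
    (h4 g).2.1, fun S μ hS hμ => ?_⟩⟩
  simpa only [Vale.Agent.P223X38.scal_pt hS] using (h4 g).2.2 μ hμ

end Vale.Agent.Results.P223.AAAAClass
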